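import Mathlib

namespace Vale.Agent.Results.P013.ProgressionSieve

/-- Jacobsthal's function: the least positive `m` such that every `m` consecutive integers
`s, s + 1, ..., s + m - 1` (arbitrary integer starting point `s`) contain one coprime to `n`. -/
noncomputable def jacobsthal (n : ℕ) : ℕ :=
  sInf {m : ℕ | 0 < m ∧ ∀ s : ℤ, ∃ i : ℕ, i < m ∧ IsCoprime (s + (i : ℤ)) (n : ℤ)}

/-- Among `m` consecutive terms of an arithmetic progression with difference `a` at most
`m / p + 1` are divisible by `p`, if `p` is coprime to `a`. -/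
private theorem card_dvd_le (p a : ℕ) (hpa : IsCoprime (p : ℤ) (a : ℤ)) (x0 : ℤ) (m : ℕ) :
    ((Finset.range m).filter (fun i : ℕ => (p : ℤ) ∣ x0 + (a : ℤ) * (i : ℤ))).card
      ≤ m / p + 1 := by
  have h : ((Finset.range m).filter (fun i : ℕ => (p : ℤ) ∣ x0 + (a : ℤ) * (i : ℤ))).card
      ≤ (Finset.range (m / p + 1)).card := by
    apply Finset.card_le_card_of_injOn (fun i => i / p)
    · intro i hi
      have hi' := Finset.mem_coe.1 hi
      have him : i < m := Finset.mem_range.1 (Finset.mem_filter.1 hi').1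
      simp only [Finset.coe_range, Set.mem_Iio]
      exact Nat.lt_succ_of_le (Nat.div_le_div_right him.le)
    · intro i hi i' hi' hii
      have h1 : (p : ℤ) ∣ x0 + (a : ℤ) * (i : ℤ) :=
        (Finset.mem_filter.1 (Finset.mem_coe.1 hi)).2
      have h2 : (p : ℤ) ∣ x0 + (a : ℤ) * (i' : ℤ) :=
        (Finset.mem_filter.1 (Finset.mem_coe.1 hi')).2
      have h3 : (p : ℤ) ∣ (a : ℤ) * ((i' : ℤ) - (i : ℤ)) := by
        have := dvd_sub h2 h1
        have e : x0 + (a : ℤ) * (i' : ℤ) - (x0 + (a : ℤ) * (i : ℤ))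
            = (a : ℤ) * ((i' : ℤ) - (i : ℤ)) := by ring
        rwa [e] at this
      have h3' : (p : ℤ) ∣ (i' : ℤ) - (i : ℤ) := hpa.dvd_of_dvd_mul_left h3
      have h4 : i ≡ i' [MOD p] := (Nat.modEq_iff_dvd).2 h3'
      have h5 : i % p = i' % p := h4
      have h6 : i / p = i' / p := hii
      rw [← Nat.div_add_mod i p, ← Nat.div_add_mod i' p, h5, h6]
  simpa using h

private theorem main (a b : ℕ) (ha : 0 < a) (hb : 0 < b) (hab : Nat.Coprime a b)
    (hσ : ∑ p ∈ b.primeFactors, (1 : ℝ) / (p : ℝ) < 1) :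
    (jacobsthal (a * b) : ℝ)
      ≤ (a : ℝ) *
        ((b.primeFactors.card : ℝ) / (1 - ∑ p ∈ b.primeFactors, (1 : ℝ) / (p : ℝ)) + 1) := by
  set σ : ℝ := ∑ p ∈ b.primeFactors, (1 : ℝ) / (p : ℝ) with hσdef
  set k : ℕ := b.primeFactors.card with hk
  have hδ : 0 < 1 - σ := by linarith
  set t : ℕ := ⌊(k : ℝ) / (1 - σ)⌋₊ + 1 with ht
  have ht1 : (k : ℝ) / (1 - σ) < (t : ℝ) := by
    rw [ht]
    push_cast
    exact Nat.lt_floor_add_one _
  have ht2 : (t : ℝ) ≤ (k : ℝ) / (1 - σ) + 1 := by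
    rw [ht]
    push_cast
    have : (⌊(k : ℝ) / (1 - σ)⌋₊ : ℝ) ≤ (k : ℝ) / (1 - σ) :=
      Nat.floor_le (by positivity)
    linarith
  have ht3 : (k : ℝ) < (t : ℝ) * (1 - σ) := by
    rwa [div_lt_iff₀ hδ] at ht1
  have htpos : 0 < t := by rw [ht]; exact Nat.succ_pos _
  -- the union bound along a progression with difference `a`
  have hprog : ∀ x0 : ℤ, ∃ j : ℕ, j < t ∧ IsCoprime (x0 + (a : ℤ) * (j : ℤ)) (b : ℤ) := by
    intro x0
    by_contra hcon
    have hcon' : ∀ i : ℕ, i < t → ¬ IsCoprime (x0 + (a : ℤ) * (i : ℤ)) (b : ℤ) := by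
      intro i hi hc
      exact hcon ⟨i, hi, hc⟩
    have hcover : Finset.range t ⊆ b.primeFactors.biUnion
        (fun p => (Finset.range t).filter (fun i : ℕ => (p : ℤ) ∣ x0 + (a : ℤ) * (i : ℤ))) := by
      intro i hi
      have him : i < t := Finset.mem_range.1 hi
      have hnc := hcon' i him
      rw [Int.isCoprime_iff_gcd_eq_one] at hnc
      obtain ⟨p, hp, hpd⟩ := Nat.exists_prime_and_dvd hnc
      have hp1 : (p : ℤ) ∣ x0 + (a : ℤ) * (i : ℤ) :=
        dvd_trans (Int.natCast_dvd_natCast.2 hpd) (Int.gcd_dvd_left _ _)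
      have hp2 : p ∣ b :=
        Int.natCast_dvd_natCast.1
          (dvd_trans (Int.natCast_dvd_natCast.2 hpd) (Int.gcd_dvd_right _ _))
      refine Finset.mem_biUnion.2 ⟨p, ?_, Finset.mem_filter.2 ⟨hi, hp1⟩⟩
      exact Nat.mem_primeFactors.2 ⟨hp, hp2, hb.ne'⟩
    have hcard : (t : ℝ) ≤ ∑ p ∈ b.primeFactors, ((t : ℝ) * (1 / (p : ℝ)) + 1) := by
      have h1 : t ≤ ∑ p ∈ b.primeFactors, (t / p + 1) := by
        calc t = (Finset.range t).card := (Finset.card_range t).symm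
          _ ≤ _ := Finset.card_le_card hcover
          _ ≤ ∑ p ∈ b.primeFactors,
                ((Finset.range t).filter
                  (fun i : ℕ => (p : ℤ) ∣ x0 + (a : ℤ) * (i : ℤ))).card :=
              Finset.card_biUnion_le
          _ ≤ ∑ p ∈ b.primeFactors, (t / p + 1) := by
              apply Finset.sum_le_sum
              intro p hp
              have hpb : p ∣ b := Nat.dvd_of_mem_primeFactors hp
              have hpa : Nat.Coprime p a := (hab.symm).coprime_dvd_left hpb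
              exact card_dvd_le p a (Nat.isCoprime_iff_coprime.2 hpa) x0 t
      have h2 : (t : ℝ) ≤ ∑ p ∈ b.primeFactors, (((t / p : ℕ) : ℝ) + 1) := by
        exact_mod_cast h1
      refine le_trans h2 (Finset.sum_le_sum ?_)
      intro p _
      have : ((t / p : ℕ) : ℝ) ≤ (t : ℝ) / (p : ℝ) := Nat.cast_div_le
      have e : (t : ℝ) * (1 / (p : ℝ)) = (t : ℝ) / (p : ℝ) := by ring
      linarith
    rw [Finset.sum_add_distrib, ← Finset.mul_sum] at hcard
    simp only [Finset.sum_const, nsmul_eq_mul, mul_one] at hcard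
    rw [← hσdef, ← hk] at hcard
    nlinarith
  have hmem : a * t ∈ {m : ℕ | 0 < m ∧
      ∀ s : ℤ, ∃ i : ℕ, i < m ∧ IsCoprime (s + (i : ℤ)) ((a * b : ℕ) : ℤ)} := by
    refine ⟨Nat.mul_pos ha htpos, ?_⟩
    intro s
    have ha' : (0 : ℤ) < (a : ℤ) := by exact_mod_cast ha
    set r : ℤ := (1 - s) % (a : ℤ) with hr
    have hr0 : 0 ≤ r := Int.emod_nonneg _ ha'.ne'
    have hr1 : r < (a : ℤ) := Int.emod_lt_of_pos _ ha'
    set c : ℤ := (1 - s) / (a : ℤ) with hc
    have hrc : r + (a : ℤ) * c = 1 - s := Int.emod_add_mul_ediv (1 - s) (a : ℤ)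
    obtain ⟨j, hj, hjc⟩ := hprog (s + r)
    refine ⟨r.toNat + a * j, ?_, ?_⟩
    · have h1 : r.toNat < a := by
        have : ((r.toNat : ℕ) : ℤ) < (a : ℤ) := by rw [Int.toNat_of_nonneg hr0]; exact hr1
        exact_mod_cast this
      calc r.toNat + a * j < a + a * j := Nat.add_lt_add_right h1 _
        _ = a * (j + 1) := by ring
        _ ≤ a * t := Nat.mul_le_mul_left a hj
    · have e : s + ((r.toNat + a * j : ℕ) : ℤ) = s + r + (a : ℤ) * (j : ℤ) := by
        push_cast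
        rw [Int.toNat_of_nonneg hr0]
        ring
      rw [e]
      push_cast
      refine IsCoprime.mul_right ?_ hjc
      have e2 : s + r + (a : ℤ) * (j : ℤ) = 1 + (a : ℤ) * ((j : ℤ) - c) := by
        have : s + r = 1 - (a : ℤ) * c := by linarith
        rw [this]
        ring
      rw [e2]
      exact (isCoprime_one_left).add_mul_left_left _
  have : jacobsthal (a * b) ≤ a * t := Nat.sInf_le hmem
  have h' : (jacobsthal (a * b) : ℝ) ≤ (a : ℝ) * (t : ℝ) := by exact_mod_cast this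
  have ha0 : (0 : ℝ) ≤ (a : ℝ) := Nat.cast_nonneg a
  calc (jacobsthal (a * b) : ℝ) ≤ (a : ℝ) * (t : ℝ) := h'
    _ ≤ (a : ℝ) * ((k : ℝ) / (1 - σ) + 1) := mul_le_mul_of_nonneg_left ht2 ha0

/-- Let `n = a b` with `a`, `b` coprime positive integers, let `k` be the number of distinct prime
factors of `b` and suppose `σ`, the sum of `1 / p` over the primes `p` dividing `b`, is less
than `1`.  Then (1) Jacobsthal's function satisfies `j(a b) ≤ a (k / (1 - σ) + 1)`; and (2) if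
moreover `a ≤ ω(n)` and `σ ≤ 1 / 2` then `j(n) ≤ ω(n) (2 ω(n) + 1)`. -/
theorem result (a b : ℕ) (ha : 0 < a) (hb : 0 < b) (hab : Nat.Coprime a b)
    (hσ : ∑ p ∈ b.primeFactors, (1 : ℝ) / (p : ℝ) < 1) :
    (jacobsthal (a * b) : ℝ)
      ≤ (a : ℝ) *
        ((b.primeFactors.card : ℝ) / (1 - ∑ p ∈ b.primeFactors, (1 : ℝ) / (p : ℝ)) + 1) ∧
    (a ≤ (a * b).primeFactors.card → ∑ p ∈ b.primeFactors, (1 : ℝ) / (p : ℝ) ≤ 1 / 2 →
      (jacobsthal (a * b) : ℝ)
        ≤ ((a * b).primeFactors.card : ℝ) * (2 * ((a * b).primeFactors.card : ℝ) + 1)) := by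
  have h1 := main a b ha hb hab hσ
  refine ⟨h1, ?_⟩
  intro haK hhalf
  set σ : ℝ := ∑ p ∈ b.primeFactors, (1 : ℝ) / (p : ℝ) with hσdef
  have hsub : b.primeFactors ⊆ (a * b).primeFactors :=
    Nat.primeFactors_mono (Dvd.intro_left a rfl) (Nat.mul_pos ha hb).ne'
  have hkK : (b.primeFactors.card : ℝ) ≤ ((a * b).primeFactors.card : ℝ) := by
    exact_mod_cast Finset.card_le_card hsub
  have haK' : (a : ℝ) ≤ ((a * b).primeFactors.card : ℝ) := by exact_mod_cast haK
  have hδ : 0 < 1 - σ := by linarith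
  have hk0 : (0 : ℝ) ≤ (b.primeFactors.card : ℝ) := Nat.cast_nonneg _
  have hdiv : (b.primeFactors.card : ℝ) / (1 - σ) ≤ 2 * (b.primeFactors.card : ℝ) := by
    rw [div_le_iff₀ hδ]
    nlinarith
  have ha0 : (0 : ℝ) ≤ (a : ℝ) := Nat.cast_nonneg a
  calc (jacobsthal (a * b) : ℝ)
      ≤ (a : ℝ) * ((b.primeFactors.card : ℝ) / (1 - σ) + 1) := h1
    _ ≤ (a : ℝ) * (2 * ((a * b).primeFactors.card : ℝ) + 1) := by
        apply mul_le_mul_of_nonneg_left _ ha0
        linarith
    _ ≤ ((a * b).primeFactors.card : ℝ) * (2 * ((a * b).primeFactors.card : ℝ) + 1) := by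
        apply mul_le_mul_of_nonneg_right haK'
        have : (0 : ℝ) ≤ ((a * b).primeFactors.card : ℝ) := Nat.cast_nonneg _
        linarith

end Vale.Agent.Results.P013.ProgressionSieve
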