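import Mathlib

namespace Vale.Agent.Results.P013.SparsePrimes

open Finset

/-- Every `m` consecutive integers contain an integer coprime to `n`. -/
def Hits (n m : ℕ) : Prop := ∀ a : ℤ, ∃ x ∈ Ico a (a + m), IsCoprime x (n : ℤ)

/-- Jacobsthal's function: the least positive `m` such that every `m` consecutive integers
contain an integer coprime to `n`. -/
noncomputable def jac (n : ℕ) : ℕ := sInf {m : ℕ | 0 < m ∧ Hits n m}

lemma card_mult_le (a : ℤ) (m p : ℕ) (hp : 0 < p) :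
    ((#{x ∈ Ico a (a + m) | (p : ℤ) ∣ x} : ℕ) : ℚ) ≤ m / p + 1 := by
  have h := Int.Ico_filter_dvd_card a (a + m) (r := (p : ℤ)) (by exact_mod_cast hp)
  have h1 := Int.ceil_lt_add_one (((a + m : ℤ) : ℚ) / ((p : ℤ) : ℚ))
  have h2 := Int.le_ceil ((a : ℚ) / ((p : ℤ) : ℚ))
  have hp' : (0 : ℚ) < p := by exact_mod_cast hp
  have h3 : ((#{x ∈ Ico a (a + m) | (p : ℤ) ∣ x} : ℕ) : ℚ)
      = ((max (⌈((a + m : ℤ) : ℚ) / ((p : ℤ) : ℚ)⌉ - ⌈(a : ℚ) / ((p : ℤ) : ℚ)⌉) 0 : ℤ) : ℚ) := by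
    rw [← h]
    simp
  rw [h3, Int.cast_max]
  apply max_le
  · push_cast at h1 h2 ⊢
    have e : ((a : ℚ) + m) / p = a / p + m / p := by ring
    linarith [e]
  · push_cast
    positivity

theorem no_cover (P : Finset ℕ) (hP : ∀ p ∈ P, 0 < p) (m : ℕ)
    (hm : (#P : ℚ) < m * (1 - ∑ p ∈ P, (1 / p : ℚ))) (a : ℤ) :
    ∃ x ∈ Ico a (a + m), ∀ p ∈ P, ¬ (p : ℤ) ∣ x := by
  by_contra hcon
  push Not at hcon
  have hsub : Ico a (a + m) ⊆ P.biUnion (fun p => {x ∈ Ico a (a + m) | (p : ℤ) ∣ x}) := by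
    intro x hx
    obtain ⟨p, hp, hpx⟩ := hcon x hx
    exact mem_biUnion.2 ⟨p, hp, mem_filter.2 ⟨hx, hpx⟩⟩
  have hcard : #(Ico a (a + m)) = m := by simp
  have h1 : m ≤ ∑ p ∈ P, #{x ∈ Ico a (a + m) | (p : ℤ) ∣ x} := by
    calc m = #(Ico a (a + m)) := hcard.symm
      _ ≤ _ := card_le_card hsub
      _ ≤ _ := card_biUnion_le
  have h2 : (m : ℚ) ≤ ∑ p ∈ P, ((m : ℚ) / p + 1) := by
    calc (m : ℚ) ≤ ((∑ p ∈ P, #{x ∈ Ico a (a + m) | (p : ℤ) ∣ x} : ℕ) : ℚ) := by exact_mod_cast h1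
      _ = ∑ p ∈ P, ((#{x ∈ Ico a (a + m) | (p : ℤ) ∣ x} : ℕ) : ℚ) := by push_cast; rfl
      _ ≤ _ := sum_le_sum fun p hp => card_mult_le a m p (hP p hp)
  have h3 : ∑ p ∈ P, ((m : ℚ) / p + 1) = m * ∑ p ∈ P, (1 / p : ℚ) + #P := by
    rw [sum_add_distrib, mul_sum]
    simp [div_eq_mul_inv]
  rw [h3] at h2
  linarith

lemma isCoprime_of (n : ℕ) (hn : n ≠ 0) (x : ℤ) (h : ∀ p ∈ n.primeFactors, ¬ (p : ℤ) ∣ x) :
    IsCoprime x (n : ℤ) := by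
  rw [Int.isCoprime_iff_gcd_eq_one]
  by_contra hg
  obtain ⟨q, hq, hqd⟩ := Nat.exists_prime_and_dvd hg
  have h1 : (q : ℤ) ∣ x := (Int.natCast_dvd_natCast.2 hqd).trans (Int.gcd_dvd_left x n)
  have h2 : (q : ℤ) ∣ (n : ℤ) := (Int.natCast_dvd_natCast.2 hqd).trans (Int.gcd_dvd_right x n)
  exact h q (Nat.mem_primeFactors.2 ⟨hq, Int.natCast_dvd_natCast.1 h2, hn⟩) h1

/-- Let `n ≥ 1` have `k` distinct prime factors with reciprocal sum `σ < 1`.  Then every `m`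
consecutive integers with `m (1 - σ) > k` contain an integer coprime to `n`, so `j(n) ≤ m`.
In particular `j(n) ≤ k^2 + 1` as soon as `σ ≤ 1 - 1/k`, and `j(n) ≤ 2 k + 1` if `σ ≤ 1/2`. -/
theorem result (n : ℕ) (hn : n ≠ 0) :
    (∀ m : ℕ, (#n.primeFactors : ℚ) < m * (1 - ∑ p ∈ n.primeFactors, (1 / p : ℚ)) →
      Hits n m ∧ jac n ≤ m) ∧
    (1 ≤ #n.primeFactors →
      ∑ p ∈ n.primeFactors, (1 / p : ℚ) ≤ 1 - 1 / (#n.primeFactors : ℚ) →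
      jac n ≤ #n.primeFactors ^ 2 + 1) ∧
    (∑ p ∈ n.primeFactors, (1 / p : ℚ) ≤ 1 / 2 → jac n ≤ 2 * #n.primeFactors + 1) := by
  have main : ∀ m : ℕ, (#n.primeFactors : ℚ) < m * (1 - ∑ p ∈ n.primeFactors, (1 / p : ℚ)) →
      Hits n m ∧ jac n ≤ m := by
    intro m hm
    have hH : Hits n m := by
      intro a
      obtain ⟨x, hx, hxp⟩ := no_cover n.primeFactors
        (fun p hp => (Nat.prime_of_mem_primeFactors hp).pos) m hm a
      exact ⟨x, hx, isCoprime_of n hn x hxp⟩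
    refine ⟨hH, Nat.sInf_le ⟨?_, hH⟩⟩
    rcases Nat.eq_zero_or_pos m with h0 | h0
    · rw [h0] at hm
      have : (0 : ℚ) ≤ #n.primeFactors := Nat.cast_nonneg _
      simp at hm
      linarith
    · exact h0
  refine ⟨main, fun hk hσ => (main _ ?_).2, fun hσ => (main _ ?_).2⟩
  · set k := #n.primeFactors with hkdef
    have hk' : (1 : ℚ) ≤ k := by exact_mod_cast hk
    have h1 : (1 : ℚ) / k ≤ 1 - ∑ p ∈ n.primeFactors, (1 / p : ℚ) := by linarith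
    have h2 : ((k ^ 2 + 1 : ℕ) : ℚ) * (1 / k) ≤
        ((k ^ 2 + 1 : ℕ) : ℚ) * (1 - ∑ p ∈ n.primeFactors, (1 / p : ℚ)) :=
      mul_le_mul_of_nonneg_left h1 (Nat.cast_nonneg _)
    refine lt_of_lt_of_le ?_ h2
    push_cast
    rw [mul_one_div, lt_div_iff₀ (by linarith)]
    nlinarith
  · set k := #n.primeFactors with hkdef
    have h1 : (1 : ℚ) / 2 ≤ 1 - ∑ p ∈ n.primeFactors, (1 / p : ℚ) := by linarith
    have h2 : ((2 * k + 1 : ℕ) : ℚ) * (1 / 2) ≤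
        ((2 * k + 1 : ℕ) : ℚ) * (1 - ∑ p ∈ n.primeFactors, (1 / p : ℚ)) :=
      mul_le_mul_of_nonneg_left h1 (Nat.cast_nonneg _)
    refine lt_of_lt_of_le ?_ h2
    push_cast
    linarith

end Vale.Agent.Results.P013.SparsePrimes
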